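import Vale.Agent.Lib.P346.Alt.Bridge

/-! `P346`: the growth of `s_K(n)` for every finite field `K`, with an explicit and more general
lower bound for the field with two elements. -/

namespace Vale.Agent.Results.P346.FiniteFieldGrowth

open Vale.P346.Alt

/-- Write `s_K(n) = minSize K n`.

* For every finite field `K`: `2^(c √n) ≤ s_K(n) ≤ n^(√n + 8)` for all large `n`, with `c > 0`
  depending only on `K`; hence `log s_K(n) = n^(1/2 + o(1))`.
* For every `q` there are `c > 0` and `n₀` such that for every field `K` with `q` elements, every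
  commutative ring `R` with a homomorphism to `K` and all `n ≥ n₀`, every syntactically
  homogeneous circuit over `R` computing `IMM_{n,n}` has at least `2^(c √n)` product gates.
* If `R` has a homomorphism to the field with two elements, then for all `n ≥ 200000` every
  circuit over `R` computing `IMM_{n,n}`, homogeneous or not, has at least `2^(√n / 250)`
  product gates. -/
theorem result :
    (∀ (K : Type) [Field K] [Finite K],
      (∃ c : ℝ, 0 < c ∧ ∃ n₀ : ℕ, ∀ n : ℕ, n₀ ≤ n →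
        (2 : ℝ) ^ (c * √(n : ℝ)) ≤ (minSize K n : ℝ) ∧
        (minSize K n : ℝ) ≤ (n : ℝ) ^ (√(n : ℝ) + 8)) ∧
      (∀ ε : ℝ, 0 < ε → ∃ n₀ : ℕ, ∀ n : ℕ, n₀ ≤ n →
        (n : ℝ) ^ (1 / 2 - ε) ≤ Real.log (minSize K n) ∧
        Real.log (minSize K n) ≤ (n : ℝ) ^ (1 / 2 + ε))) ∧
    (∀ q : ℕ, ∃ c : ℝ, 0 < c ∧ ∃ n₀ : ℕ,
      ∀ (K : Type) [Field K] [Finite K], Nat.card K = q →
        ∀ (R : Type) [CommRing R], (R →+* K) → ∀ n : ℕ, n₀ ≤ n →
          ∀ Γ : SPSPS R (Fin n × Fin n × Fin n), Γ.Homogeneous → Γ.poly = imm R n n →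
            (2 : ℝ) ^ (c * √(n : ℝ)) ≤ (Γ.prods₁ : ℝ) + Γ.prods₂) ∧
    (∀ (R : Type) [CommRing R], (R →+* ZMod 2) → ∀ n : ℕ, 200000 ≤ n →
      ∀ Γ : SPSPS R (Fin n × Fin n × Fin n), Γ.poly = imm R n n →
        (2 : ℝ) ^ (√(n : ℝ) / 250) ≤ (Γ.prods₁ : ℝ) + Γ.prods₂) := by
  refine ⟨?_, ?_, ?_⟩
  · intro K _ _
    have := Fintype.ofFinite K
    obtain ⟨c, hc, n₁, h⟩ := Vale.P346.s_lower_every (Fintype.card K)
    have hlow : ∀ n ≥ n₁, (2 : ℝ) ^ (c * √(n : ℝ)) ≤ (Vale.P346.s K n : ℝ) :=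
      fun n hn => h K rfl K (RingHom.id K) n hn
    refine ⟨⟨c, hc, max n₁ 2, fun n hn => ?_⟩, fun ε hε => ?_⟩
    · have h1 : n₁ ≤ n := (le_max_left _ _).trans hn
      have h2 : 2 ≤ n := (le_max_right _ _).trans hn
      rw [minSize_eq K (by omega : 0 < n)]
      exact ⟨hlow n h1, Vale.P346.s_upper K n h2⟩
    · have hone : ∀ᶠ n : ℕ in Filter.atTop, 1 < (Vale.P346.s K n : ℝ) := by
        filter_upwards [Filter.eventually_ge_atTop (max n₁ 1)] with n hn
        have h1 : n₁ ≤ n := (le_max_left _ _).trans hn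
        have h2 : 1 ≤ n := (le_max_right _ _).trans hn
        have h3 : (0 : ℝ) < n := by exact_mod_cast h2
        refine lt_of_lt_of_le ?_ (hlow n h1)
        exact Real.one_lt_rpow (by norm_num) (mul_pos hc (Real.sqrt_pos.mpr h3))
      obtain ⟨n₂, h2⟩ := powers_of_tendsto hone (Vale.P346.growth_every K c hc n₁ hlow) hε
      refine ⟨max n₂ 1, fun n hn => ?_⟩
      rw [minSize_eq K (lt_of_lt_of_le Nat.one_pos ((le_max_right _ _).trans hn))]
      exact h2 n ((le_max_left _ _).trans hn)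
  · intro q
    obtain ⟨c, hc, n₁, h⟩ := Vale.P346.lower_every q
    refine ⟨c, hc, max n₁ 1, ?_⟩
    intro K _ _ hK R _ φ n hn Γ hΓ hpoly
    have := Fintype.ofFinite K
    have h1 : n₁ ≤ n := (le_max_left _ _).trans hn
    have h2 : 0 < n := lt_of_lt_of_le Nat.one_pos ((le_max_right _ _).trans hn)
    have h3 := h K (by rw [← hK, Nat.card_eq_fintype_card]) R φ n h1 (toC Γ)
      (toC_homogeneous Γ hΓ) ((toC_out Γ).trans (hpoly.trans (imm_eq R h2 n)))
    change (2 : ℝ) ^ (c * √(n : ℝ)) ≤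
      (Fintype.card (Fin Γ.prods₁) : ℝ) + Fintype.card (Fin Γ.prods₂) at h3
    rwa [Fintype.card_fin, Fintype.card_fin] at h3
  · intro R _ φ n hn Γ hpoly
    have h3 := Vale.P346.lower_real φ n hn (toC Γ)
      ((toC_out Γ).trans (hpoly.trans (imm_eq R (by omega) n)))
    change (2 : ℝ) ^ (√(n : ℝ) / 250) ≤
      (Fintype.card (Fin Γ.prods₁) : ℝ) + Fintype.card (Fin Γ.prods₂) at h3
    rwa [Fintype.card_fin, Fintype.card_fin] at h3

end Vale.Agent.Results.P346.FiniteFieldGrowth
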