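import Vale.Agent.Lib.P346.FQ.Growth

/-! `P346`: the growth of `s_K(n)` for every finite field `K`. -/

namespace Vale.Agent.Results.P346.FiniteFields

open Vale.P346 Filter Topology

/-- For every finite field `K` there is `c > 0` with `2^{c√n} ≤ s_K(n) ≤ n^{√n + 8}` for all large
`n`, so `log s_K(n) = n^{1/2 + o(1)}`.  The constants depend only on the number `q` of elements,
the lower bound holds for the number of product gates, and also for circuits over any commutative
ring with a homomorphism to a field with `q` elements. -/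
theorem result :
    (∀ (K : Type) [Field K] [Finite K],
      (∃ c : ℝ, 0 < c ∧ ∀ᶠ n : ℕ in atTop,
        (2 : ℝ) ^ (c * √(n : ℝ)) ≤ (s K n : ℝ) ∧
        (s K n : ℝ) ≤ (n : ℝ) ^ (√(n : ℝ) + 8)) ∧
      Tendsto (fun n : ℕ => Real.log (Real.log (s K n)) / Real.log n) atTop (𝓝 (1 / 2))) ∧
    (∀ q : ℕ, ∃ c : ℝ, 0 < c ∧ ∃ n₀ : ℕ,
      ∀ (K : Type) [Field K] [Fintype K], Fintype.card K = q →
        ∀ (R : Type) [CommRing R], (R →+* K) → ∀ n ≥ n₀, ∀ C : Circuit R (Var n n),
          C.Homogeneous → C.out = IMM R n n →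
            (2 : ℝ) ^ (c * √(n : ℝ)) ≤ (Fintype.card C.G2 : ℝ) + Fintype.card C.G4) := by
  refine ⟨?_, lower_every⟩
  intro K _ _
  have := Fintype.ofFinite K
  obtain ⟨c, hc, n0, h⟩ := s_lower_every (Fintype.card K)
  have hlow : ∀ n ≥ n0, (2 : ℝ) ^ (c * √(n : ℝ)) ≤ (s K n : ℝ) :=
    fun n hn => h K rfl K (RingHom.id K) n hn
  refine ⟨⟨c, hc, ?_⟩, growth_every K c hc n0 hlow⟩
  filter_upwards [eventually_ge_atTop n0, eventually_ge_atTop 2] with n hn hn2
  exact ⟨hlow n hn, s_upper K n hn2⟩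

end Vale.Agent.Results.P346.FiniteFields
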