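import Vale.Agent.Lib.P346.Final2

/-! `P346`: the growth of `s_K(n)` for the field `K` with two elements. -/

namespace Vale.Agent.Results.P346.GrowthF2

open Vale.P346 Filter Topology

/-- For `K = F_2`: `2^{√n/250} ≤ s_K(n) ≤ n^{√n + 8}` for all large `n`, so that
`log s_K(n) = n^{1/2 + o(1)}`; moreover the lower bound holds for all (not necessarily
homogeneous) `ΣΠΣΠΣ` circuits over any commutative ring with a homomorphism to `F_2`. -/
theorem result :
    (∀ n : ℕ, 200000 ≤ n →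
      (2 : ℝ) ^ (√(n : ℝ) / 250) ≤ (s (ZMod 2) n : ℝ) ∧
      (s (ZMod 2) n : ℝ) ≤ (n : ℝ) ^ (√(n : ℝ) + 8)) ∧
    Tendsto (fun n : ℕ => Real.log (Real.log (s (ZMod 2) n)) / Real.log n) atTop (𝓝 (1 / 2)) ∧
    (∀ (R : Type) [CommRing R], (R →+* ZMod 2) → ∀ n : ℕ, 200000 ≤ n →
      ∀ C : Circuit R (Var n n), C.out = IMM R n n →
        (2 : ℝ) ^ (√(n : ℝ) / 250) ≤ (C.size : ℝ)) :=
  ⟨fun n hn => ⟨s_lower (RingHom.id (ZMod 2)) n hn, s_upper (ZMod 2) n (by omega)⟩,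
    s_growth (RingHom.id (ZMod 2)), fun _ _ φ n hn C hC => lower_size φ n hn C hC⟩

end Vale.Agent.Results.P346.GrowthF2
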